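import Vale.Agent.N359.G
import Vale.Agent.P359.H329.Main
import Mathlib.RingTheory.MvPolynomial.EulerIdentity

/-! P359, planar gap: the Bargmann inner product, adjoints of linear substitutions. -/

set_option linter.all false

noncomputable section

namespace Vale.Agent.N359

open MvPolynomial Finset

variable {N : ℕ}

/-- `m !` -/
def fa (m : Fin N →₀ ℕ) : ℝ := ∏ k, ((m k).factorial : ℝ)

theorem fa_pos (m : Fin N →₀ ℕ) : 0 < fa m :=
  Finset.prod_pos fun k _ => by exact_mod_cast (m k).factorial_pos

theorem fa_cast (m : Fin N →₀ ℕ) : ∏ k, ((m k).factorial : ℂ) = (fa m : ℂ) := by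
  simp [fa]

theorem barg_eq {f g : Pl N} {s : Finset (Fin N →₀ ℕ)} (hs : f.support ⊆ s) :
    barg f g = ∑ m ∈ s, star (coeff m f) * coeff m g * (fa m : ℂ) := by
  rw [barg_def]
  simp only [fa_cast]
  refine Finset.sum_subset hs fun m _ hm => ?_
  rw [notMem_support_iff.mp hm]
  simp

theorem barg_add_left (f f' g : Pl N) : barg (f + f') g = barg f g + barg f' g := by
  classical
  rw [barg_eq (s := f.support ∪ f'.support) support_add, barg_eq (f := f) subset_union_left,
    barg_eq (f := f') subset_union_right, ← sum_add_distrib]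
  refine sum_congr rfl fun m _ => ?_
  rw [coeff_add, star_add]
  ring

theorem barg_monomial (m : Fin N →₀ ℕ) (a : ℂ) (g : Pl N) :
    barg (monomial m a) g = star a * coeff m g * (fa m : ℂ) := by
  classical
  rw [barg_eq (s := {m}) support_monomial_subset, sum_singleton, coeff_monomial, if_pos rfl]

theorem barg_symm (f g : Pl N) : barg g f = star (barg f g) := by
  classical
  rw [barg_eq (f := g) (s := f.support ∪ g.support) subset_union_right,
    barg_eq (f := f) (s := f.support ∪ g.support) subset_union_left, star_sum]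
  refine sum_congr rfl fun m _ => ?_
  simp only [star_mul', star_star, Complex.star_def, Complex.conj_ofReal]
  rw [Complex.conj_conj]
  ring

/-- the inner product is linear in the second argument -/
def bR (f : Pl N) : Pl N →ₗ[ℂ] ℂ where
  toFun := barg f
  map_add' g g' := by
    simp only [barg_def, coeff_add, ← sum_add_distrib]
    exact sum_congr rfl fun m _ => by ring
  map_smul' c g := by
    simp only [barg_def, coeff_smul, smul_eq_mul, RingHom.id_apply, mul_sum]
    exact sum_congr rfl fun m _ => by ring

theorem barg_add_right (f g g' : Pl N) : barg f (g + g') = barg f g + barg f g' :=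
  (bR f).map_add g g'

theorem barg_sub_right (f g g' : Pl N) : barg f (g - g') = barg f g - barg f g' :=
  (bR f).map_sub g g'

theorem barg_smul_right (f g : Pl N) (c : ℂ) : barg f (c • g) = c * barg f g :=
  (bR f).map_smul c g

theorem barg_zero_right (f : Pl N) : barg f 0 = 0 := (bR f).map_zero

theorem barg_sum_right {ι : Type*} (s : Finset ι) (f : Pl N) (g : ι → Pl N) :
    barg f (∑ a ∈ s, g a) = ∑ a ∈ s, barg f (g a) := map_sum (bR f) g s

theorem barg_smul_left (f g : Pl N) (c : ℂ) : barg (c • f) g = star c * barg f g := by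
  rw [barg_symm, barg_smul_right, star_mul', ← barg_symm]

theorem barg_sub_left (f f' g : Pl N) : barg (f - f') g = barg f g - barg f' g := by
  rw [barg_symm, barg_sub_right, star_sub, ← barg_symm, ← barg_symm]

theorem barg_zero_left (g : Pl N) : barg 0 g = 0 := by simp [barg_def]

theorem barg_sum_left {ι : Type*} (s : Finset ι) (f : ι → Pl N) (g : Pl N) :
    barg (∑ a ∈ s, f a) g = ∑ a ∈ s, barg (f a) g := by
  rw [barg_symm, barg_sum_right, star_sum]
  exact sum_congr rfl fun a _ => (barg_symm _ _).symm

theorem barg_self {f : Pl N} {s : Finset (Fin N →₀ ℕ)} (hs : f.support ⊆ s) :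
    barg f f = ((∑ m ∈ s, ‖coeff m f‖ ^ 2 * fa m : ℝ) : ℂ) := by
  rw [barg_eq hs]
  push_cast
  refine sum_congr rfl fun m _ => ?_
  rw [Complex.star_def, Complex.conj_mul']

theorem barg_self_re {f : Pl N} {s : Finset (Fin N →₀ ℕ)} (hs : f.support ⊆ s) :
    (barg f f).re = ∑ m ∈ s, ‖coeff m f‖ ^ 2 * fa m := by
  rw [barg_self hs, Complex.ofReal_re]

theorem barg_self_nonneg (f : Pl N) : 0 ≤ (barg f f).re := by
  rw [barg_self_re subset_rfl]
  exact sum_nonneg fun m _ => mul_nonneg (by positivity) (fa_pos m).le

theorem barg_self_im (f : Pl N) : (barg f f).im = 0 := by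
  rw [barg_self subset_rfl, Complex.ofReal_im]

theorem eq_zero_of_barg {f : Pl N} (h : (barg f f).re = 0) : f = 0 := by
  rw [barg_self_re subset_rfl, sum_eq_zero_iff_of_nonneg
    fun m _ => mul_nonneg (by positivity) (fa_pos m).le] at h
  by_contra hf
  obtain ⟨m, hm⟩ := support_nonempty.mpr hf
  have h1 := (mul_eq_zero.mp (h m hm)).resolve_right (fa_pos m).ne'
  exact mem_support_iff.mp hm (norm_eq_zero.mp (pow_eq_zero_iff two_ne_zero |>.mp h1))

theorem fa_succ (m : Fin N →₀ ℕ) (k : Fin N) :
    fa (m + Finsupp.single k 1) = (m k + 1) * fa m := by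
  unfold fa
  rw [← Finset.mul_prod_erase univ _ (mem_univ k), ← Finset.mul_prod_erase univ _ (mem_univ k),
    ← mul_assoc]
  congr 1
  · simp [Nat.factorial_succ]
  · refine prod_congr rfl fun l hl => ?_
    rw [Finsupp.add_apply, Finsupp.single_eq_of_ne (ne_of_mem_erase hl), add_zero]

/-- multiplication by `z_k` is adjoint to `∂_k` -/
theorem barg_X (k : Fin N) (f g : Pl N) : barg (X k * f) g = barg f (pderiv k g) := by
  induction f using MvPolynomial.induction_on' with
  | monomial m a =>
    rw [X, monomial_mul, barg_monomial, barg_monomial, coeff_pderiv, add_comm, fa_succ]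
    push_cast
    ring
  | add p q hp hq => rw [mul_add, barg_add_left, barg_add_left, hp, hq]

/-- chain rule for a linear substitution -/
theorem chain (T : Pl N →ₐ[ℂ] Pl N) (A : Fin N → Fin N → ℂ)
    (hT : ∀ l, T (X l) = ∑ k, A l k • X k) (k : Fin N) (f : Pl N) :
    pderiv k (T f) = ∑ l, A l k • T (pderiv l f) := by
  induction f using MvPolynomial.induction_on with
  | C a => simp [algHom_C]
  | add p q hp hq => simp only [map_add, hp, hq, smul_add, sum_add_distrib]
  | mul_X p n hp =>
    have h1 : pderiv k (T (X n)) = C (A n k) := by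
      rw [hT, map_sum, Finset.sum_eq_single k]
      · simp [smul_eq_C_mul]
      · intro l _ hl
        rw [Derivation.map_smul, pderiv_X_of_ne hl, smul_zero]
      · simp
    have h2 : ∑ l, A l k • T (p * pderiv l (X n)) = T p * C (A n k) := by
      rw [Finset.sum_eq_single n]
      · simp [smul_eq_C_mul, mul_comm]
      · intro l _ hl
        rw [pderiv_X_of_ne hl.symm, mul_zero, map_zero, smul_zero]
      · simp
    simp only [map_mul, Derivation.leibniz, smul_eq_mul, map_add, smul_add, sum_add_distrib] at *
    rw [h1, hp, h2, mul_sum]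
    simp only [mul_smul_comm]

theorem coeff_zero_sub (T : Pl N →ₐ[ℂ] Pl N) (A : Fin N → Fin N → ℂ)
    (hT : ∀ l, T (X l) = ∑ k, A l k • X k) (f : Pl N) : coeff 0 (T f) = coeff 0 f := by
  have h : ∀ p : Pl N, coeff 0 p = constantCoeff p := fun p => rfl
  rw [h, h]
  induction f using MvPolynomial.induction_on with
  | C a => simp [algHom_C]
  | add p q hp hq => simp only [map_add, hp, hq]
  | mul_X p n hp => simp [hT, map_sum]

/-- the adjoint of a linear substitution -/
theorem barg_adj (T T' : Pl N →ₐ[ℂ] Pl N) (A : Fin N → Fin N → ℂ)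
    (hT : ∀ l, T (X l) = ∑ k, A l k • X k) (hT' : ∀ k, T' (X k) = ∑ l, star (A l k) • X l)
    (f g : Pl N) : barg (T f) g = barg f (T' g) := by
  induction f using MvPolynomial.induction_on generalizing g with
  | C a =>
    rw [algHom_C, algebraMap_eq, C_apply, barg_monomial, barg_monomial,
      coeff_zero_sub T' (fun k l => star (A l k)) hT']
  | add p q hp hq => rw [map_add, barg_add_left, barg_add_left, hp, hq]
  | mul_X p n hp =>
    rw [map_mul, hT, mul_sum, barg_sum_left, mul_comm p, barg_X,
      chain T' (fun k l => star (A l k)) hT', barg_sum_right]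
    refine sum_congr rfl fun k _ => ?_
    rw [mul_smul_comm, barg_smul_left, barg_smul_right, mul_comm (T p), barg_X, hp]

/-- the diagonal substitution `z_k ↦ a_k z_k` -/
def dg (a : Fin N → ℂ) : Pl N →ₐ[ℂ] Pl N := aeval fun k => a k • X k

theorem dg_X (a : Fin N → ℂ) (k : Fin N) : dg a (X k) = a k • X k := aeval_X _ _

theorem coeff_dg (a : Fin N → ℂ) (m : Fin N →₀ ℕ) (f : Pl N) :
    coeff m (dg a f) = (∏ k, a k ^ m k) * coeff m f := by
  classical
  induction f using MvPolynomial.induction_on' with
  | monomial n c =>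
    have h : dg a (monomial n c) = monomial n ((∏ k, a k ^ n k) * c) := by
      rw [dg, aeval_monomial, monomial_eq, Finsupp.prod_fintype _ _ (by simp),
        Finsupp.prod_fintype _ _ (by simp), algebraMap_eq]
      simp only [smul_eq_C_mul, mul_pow, prod_mul_distrib, C_mul, map_prod, C_pow]
      ring
    rw [h, coeff_monomial, coeff_monomial]
    split_ifs with h1
    · rw [h1]
    · simp
  | add p q hp hq => rw [map_add, coeff_add, coeff_add, hp, hq, mul_add]

end Vale.Agent.N359

end
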