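import Vale.Agent.N359.A

/-! P359, planar gap: the projection onto relative angular momentum one. -/

set_option linter.all false

noncomputable section

namespace Vale.Agent.N359

open MvPolynomial Finset Vale.Agent.P359

variable {N : ℕ} {i j : Fin N}

/-- `z_i, z_j ↦ (z_i + z_j) / 2` -/
def mid (i j : Fin N) : Pl N →ₐ[ℂ] Pl N :=
  aeval fun k => if k = i ∨ k = j then (1 / 2 : ℂ) • (X i + X j) else X k

/-- the adjoint of `idn i j` -/
def ids (i j : Fin N) : Pl N →ₐ[ℂ] Pl N :=
  aeval fun k => if k = j then 0 else if k = i then X i + X j else X k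

def hf (i : Fin N) : Fin N → ℂ := fun k => if k = i then 1 / 2 else 1

theorem mid_X (k : Fin N) :
    mid i j (X k) = if k = i ∨ k = j then (1 / 2 : ℂ) • (X i + X j) else X k := aeval_X _ _

theorem ids_X (k : Fin N) :
    ids i j (X k) = if k = j then 0 else if k = i then X i + X j else X k := aeval_X _ _

theorem mid_eq (h : i ≠ j) (f : Pl N) : mid i j f = ids i j (dg (hf i) (idn i j f)) := by
  have : mid i j = (ids i j).comp ((dg (hf i)).comp (idn i j)) := by
    refine algHom_ext fun k => ?_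
    simp only [AlgHom.comp_apply, idn_X, mid_X]
    by_cases h1 : k = j
    · simp [h1, dg_X, hf, ids_X, h]
    · by_cases h2 : k = i
      · simp [h2, dg_X, hf, ids_X, h]
      · simp [h1, h2, dg_X, hf, ids_X]
  rw [this]; rfl

theorem barg_idn (h : i ≠ j) (f g : Pl N) : barg (idn i j f) g = barg f (ids i j g) := by
  refine barg_adj _ _ (fun l k => if k = (if l = j then i else l) then 1 else 0) (fun l => ?_)
    (fun k => ?_) f g
  · rw [idn_X]
    simp only [ite_smul, one_smul, zero_smul, sum_ite_eq', mem_univ, if_true]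
    split_ifs <;> rfl
  · rw [ids_X, ← Finset.add_sum_erase _ _ (mem_univ j)]
    have h2 : ∑ l ∈ univ.erase j, star (if k = (if l = j then i else l) then (1 : ℂ) else 0) •
        (X l : Pl N) = ∑ l ∈ univ.erase j, if k = l then X l else 0 := by
      refine sum_congr rfl fun l hl => ?_
      rw [if_neg (ne_of_mem_erase hl)]
      split_ifs <;> simp
    rw [h2, sum_ite_eq]
    by_cases h1 : k = j
    · simp [h1, h.symm]
    · by_cases h3 : k = i
      · simp [h3, h, add_comm]
      · simp [h1, h3]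

theorem barg_mid (h : i ≠ j) (f g : Pl N) :
    barg f (mid i j g) = barg (idn i j f) (dg (hf i) (idn i j g)) := by
  rw [mid_eq h, barg_idn h]

theorem prod_hf (m : Fin N →₀ ℕ) : ∏ k, hf i k ^ m k = (((1 / 2 : ℝ) ^ m i : ℝ) : ℂ) := by
  rw [Finset.prod_eq_single i]
  · simp [hf]
  · intro k _ hk
    simp [hf, hk]
  · simp

theorem barg_dg (f g : Pl N) : barg (dg (hf i) f) g = barg f (dg (hf i) g) := by
  classical
  rw [barg_eq (s := (dg (hf i) f).support ∪ f.support) subset_union_left,
    barg_eq (s := (dg (hf i) f).support ∪ f.support) subset_union_right]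
  refine sum_congr rfl fun m _ => ?_
  rw [coeff_dg, coeff_dg, prod_hf, star_mul', Complex.star_def, Complex.conj_ofReal]
  ring

/-- `∂_i - ∂_j` -/
def dd (i j : Fin N) (f : Pl N) : Pl N := pderiv i f - pderiv j f

/-- the projection -/
def pr (i j : Fin N) : Pl N →ₗ[ℂ] Pl N where
  toFun f := (1 / 2 : ℂ) • ((X i - X j) * mid i j (dd i j f))
  map_add' f g := by
    simp only [dd, map_add, map_sub]
    rw [← smul_add]; congr 1; ring
  map_smul' c f := by
    simp only [dd, Derivation.map_smul, ← smul_sub, map_smul, RingHom.id_apply, mul_smul_comm]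
    rw [smul_comm]

theorem pr_apply (f : Pl N) : pr i j f = (1 / 2 : ℂ) • ((X i - X j) * mid i j (dd i j f)) := rfl

theorem barg_pr (h : i ≠ j) (f g : Pl N) : barg f (pr i j g) =
    1 / 2 * barg (idn i j (dd i j f)) (dg (hf i) (idn i j (dd i j g))) := by
  have h1 : ∀ (k : Fin N) (p : Pl N), barg f (X k * p) = barg (pderiv k f) p := fun k p => by
    rw [barg_symm, barg_X, ← barg_symm]
  rw [pr_apply, barg_smul_right, sub_mul, barg_sub_right, h1, h1, ← barg_sub_left, barg_mid h]
  rfl

theorem pr_symm (h : i ≠ j) (f g : Pl N) : barg (pr i j f) g = barg f (pr i j g) := by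
  rw [barg_symm, barg_pr h, barg_pr h, star_mul', ← barg_symm, barg_dg]
  congr 1
  simp

/-- twice the pair energy -/
def en (i j : Fin N) (f : Pl N) : ℝ :=
  ∑ m ∈ (idn i j (dd i j f)).support, ‖coeff m (idn i j (dd i j f))‖ ^ 2 * ((1 / 2) ^ m i * fa m)

theorem barg_pr_self (h : i ≠ j) (f : Pl N) :
    barg f (pr i j f) = ((en i j f / 2 : ℝ) : ℂ) := by
  rw [barg_pr h, barg_eq subset_rfl, en]
  push_cast
  rw [mul_comm, mul_one_div]
  congr 1
  refine sum_congr rfl fun m _ => ?_
  rw [coeff_dg, prod_hf, ← Complex.conj_mul', Complex.star_def]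
  push_cast
  ring

theorem en_nonneg (f : Pl N) : 0 ≤ en i j f :=
  sum_nonneg fun m _ => mul_nonneg (by positivity) (mul_nonneg (by positivity) (fa_pos m).le)

theorem en_eq_zero {f : Pl N} (h : en i j f = 0) : idn i j (dd i j f) = 0 := by
  rw [en, sum_eq_zero_iff_of_nonneg
    fun m _ => mul_nonneg (by positivity) (mul_nonneg (by positivity) (fa_pos m).le)] at h
  by_contra hf
  obtain ⟨m, hm⟩ := support_nonempty.mpr hf
  have h1 := (mul_eq_zero.mp (h m hm)).resolve_right
    (mul_pos (by positivity) (fa_pos m)).ne'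
  exact mem_support_iff.mp hm (norm_eq_zero.mp (pow_eq_zero_iff two_ne_zero |>.mp h1))

/-- the polynomials in `z_i + z_j` and the other variables -/
abbrev cm (i j : Fin N) : Subalgebra ℂ (Pl N) :=
  Algebra.adjoin ℂ (insert (X i + X j) {p : Pl N | ∃ k, k ≠ i ∧ k ≠ j ∧ p = X k})

theorem mid_mem (f : Pl N) : mid i j f ∈ cm i j := by
  induction f using MvPolynomial.induction_on with
  | C a => rw [algHom_C]; exact Subalgebra.algebraMap_mem _ a
  | add p q hp hq => rw [map_add]; exact add_mem hp hq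
  | mul_X p n hp =>
    rw [map_mul, mid_X]
    refine mul_mem hp ?_
    split_ifs with h
    · exact Subalgebra.smul_mem _ (Algebra.subset_adjoin (Set.mem_insert _ _)) _
    · rw [not_or] at h
      exact Algebra.subset_adjoin (Set.mem_insert_of_mem _ ⟨n, h.1, h.2, rfl⟩)

theorem mid_of_mem {f : Pl N} (hf : f ∈ cm i j) : mid i j f = f := by
  have : cm i j ≤ AlgHom.equalizer (mid i j) (AlgHom.id ℂ _) := by
    refine Algebra.adjoin_le ?_
    rintro p (rfl | ⟨k, h1, h2, rfl⟩)
    · show mid i j (X i + X j) = X i + X j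
      rw [map_add, mid_X, mid_X, if_pos (Or.inl rfl), if_pos (Or.inr rfl), ← add_smul]
      norm_num
    · show mid i j (X k) = X k
      rw [mid_X, if_neg (by tauto)]
  exact this hf

theorem pr_rel (f : Pl N) : RelOne i j (pr i j f) :=
  ⟨(1 / 2 : ℂ) • mid i j (dd i j f), Subalgebra.smul_mem _ (mid_mem _) _, by
    rw [pr_apply, mul_smul_comm]⟩

theorem pr_of_rel (h : i ≠ j) {w : Pl N} (hw : RelOne i j w) : pr i j w = w := by
  obtain ⟨g, hg, rfl⟩ := hw
  have h1 : dd i j ((X i - X j) * g) = (X i - X j) * dd i j g + (2 : ℂ) • g := by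
    simp only [dd, Derivation.leibniz, map_sub, pderiv_X_self, pderiv_X_of_ne h,
      pderiv_X_of_ne h.symm, smul_eq_mul, two_smul]
    ring
  have h2 : mid i j (X i - X j) = 0 := by
    rw [map_sub, mid_X, mid_X, if_pos (Or.inl rfl), if_pos (Or.inr rfl), sub_self]
  rw [pr_apply, h1, map_add, map_mul, h2, zero_mul, zero_add, map_smul, mid_of_mem hg,
    mul_smul_comm, smul_smul]
  norm_num

theorem pr_isProj (h : i ≠ j) : IsRelProj i j (pr i j) := fun f =>
  ⟨pr_rel f, fun w hw => by rw [barg_sub_right, ← pr_symm h, pr_of_rel h hw, sub_self]⟩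

theorem eq_pr (h : i ≠ j) {T : Pl N → Pl N} (hT : IsRelProj i j T) : T = pr i j := by
  funext f
  have h1 : RelOne i j (T f - pr i j f) := by
    obtain ⟨a, ha, e1⟩ := (hT f).1
    obtain ⟨b, hb, e2⟩ := pr_rel (i := i) (j := j) f
    exact ⟨a - b, sub_mem ha hb, by rw [e1, e2, mul_sub]⟩
  have h2 : T f - pr i j f = (f - pr i j f) - (f - T f) := by ring
  refine sub_eq_zero.mp (eq_zero_of_barg ?_)
  conv_lhs => rw [show barg (T f - pr i j f) (T f - pr i j f) = 0 by
    conv_lhs => arg 2; rw [h2]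
    rw [barg_sub_right, (hT f).2 _ h1, (pr_isProj h f).2 _ h1, sub_self]]
  rfl

/-- the planar Hamiltonian -/
def HH (N : ℕ) : Pl N →ₗ[ℂ] Pl N := ∑ i, ∑ j ∈ Ioi i, pr i j

theorem HH_apply (f : Pl N) : HH N f = ∑ i, ∑ j ∈ Ioi i, pr i j f := by
  simp only [HH, LinearMap.sum_apply]

theorem planarH_eq {T : Fin N → Fin N → Pl N → Pl N} (hT : ∀ i j, i < j → IsRelProj i j (T i j)) :
    planarH T = HH N := by
  funext f
  rw [HH_apply]
  exact sum_congr rfl fun i _ => sum_congr rfl fun j hj => by
    rw [eq_pr (mem_Ioi.mp hj).ne (hT i j (mem_Ioi.mp hj))]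

theorem HH_symm (f g : Pl N) : barg (HH N f) g = barg f (HH N g) := by
  simp only [HH_apply, barg_sum_left, barg_sum_right]
  exact sum_congr rfl fun i _ => sum_congr rfl fun j hj => pr_symm (mem_Ioi.mp hj).ne f g

theorem HH_self (f : Pl N) :
    barg f (HH N f) = ((∑ i, ∑ j ∈ Ioi i, en i j f / 2 : ℝ) : ℂ) := by
  simp only [HH_apply, barg_sum_right, Complex.ofReal_sum]
  exact sum_congr rfl fun i _ => sum_congr rfl fun j hj => barg_pr_self (mem_Ioi.mp hj).ne f

theorem HH_eq_zero_iff {f : Pl N} (hf : Anti f) : HH N f = 0 ↔ vand3 N ∣ f := by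
  constructor
  · intro h
    have h1 := HH_self f
    rw [h, barg_zero_right, eq_comm, Complex.ofReal_eq_zero, sum_eq_zero_iff_of_nonneg
      fun i _ => sum_nonneg fun j _ => div_nonneg (en_nonneg f) two_pos.le] at h1
    refine vand3_dvd f fun i j hij => cube_dvd hij.ne f ?_ (en_eq_zero ?_)
    · rw [hf, Equiv.Perm.sign_swap hij.ne]
      simp
    · have h2 := (sum_eq_zero_iff_of_nonneg
        fun j _ => div_nonneg (en_nonneg f) two_pos.le).mp (h1 i (mem_univ i)) j (mem_Ioi.mpr hij)
      linarith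
  · intro hd
    rw [HH_apply]
    refine sum_eq_zero fun i _ => sum_eq_zero fun j hj => ?_
    have hij := mem_Ioi.mp hj
    have h1 : idn i j (dd i j f) = 0 := by
      refine AllFlux.idn_of_cube_dvd _ (dvd_trans ?_ hd)
      rw [vand3_eq]
      exact Finset.dvd_prod_of_mem (fun p : Fin N × Fin N => (X p.1 - X p.2 : Pl N) ^ 3)
        (a := (i, j)) (mem_filter.mpr ⟨mem_univ _, hij⟩)
    rw [pr_apply, mid_eq hij.ne, h1, map_zero, map_zero, mul_zero, smul_zero]

theorem rename_pr (σ : Equiv.Perm (Fin N)) (f : Pl N) :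
    rename σ (pr i j f) = pr (σ i) (σ j) (rename σ f) := by
  have h1 : (rename σ).comp (mid i j) = (mid (σ i) (σ j)).comp (rename σ) := by
    refine algHom_ext fun k => ?_
    simp only [AlgHom.comp_apply, rename_X, mid_X, σ.injective.eq_iff]
    split_ifs <;> simp
  have h2 : ∀ p, rename σ (mid i j p) = mid (σ i) (σ j) (rename σ p) := fun p =>
    congrArg (fun F : Pl N →ₐ[ℂ] Pl N => F p) h1
  simp only [pr_apply, map_smul, map_mul, map_sub, rename_X, h2, dd, pderiv_rename σ.injective]

theorem pr_comm (f : Pl N) : pr j i f = pr i j f := by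
  have h1 : mid j i = mid i j := by
    refine algHom_ext fun k => ?_
    simp only [mid_X, or_comm, add_comm]
  rw [pr_apply, pr_apply, h1, show dd j i f = -dd i j f by simp [dd], map_neg,
    show (X j - X i : Pl N) = -(X i - X j) by ring, neg_mul_neg]

theorem two_HH (f : Pl N) : (2 : ℂ) • HH N f = ∑ i, ∑ j, pr i j f := by
  have h1 := Finset.sum_sum_Ioi_add_eq_sum_sum_off_diag (fun j i : Fin N => pr i j f)
  have h2 : ∀ i : Fin N, ∑ j ∈ ({i} : Finset (Fin N))ᶜ, pr i j f = ∑ j, pr i j f := fun i => by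
    rw [← Finset.sum_add_sum_compl {i}, sum_singleton, pr_apply (i := i) (j := i)]
    simp
  simp only [h2] at h1
  rw [← h1, HH_apply, two_smul, ← sum_add_distrib]
  refine sum_congr rfl fun i _ => ?_
  rw [← sum_add_distrib]
  exact sum_congr rfl fun j _ => by rw [pr_comm (i := i)]

theorem Anti.HH {f : Pl N} (hf : Anti f) : Anti (HH N f) := fun σ => by
  refine smul_right_injective _ (two_ne_zero (α := ℂ)) ?_
  have e : ((Equiv.Perm.sign σ : ℤ) : ℂ) • N359.HH N f = N359.HH N (rename σ f) := by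
    rw [hf σ, map_smul]
  simp only
  rw [e, ← map_smul, two_HH, two_HH, map_sum,
    ← Equiv.sum_comp σ (fun i => ∑ j, pr i j (rename σ f))]
  refine sum_congr rfl fun i _ => ?_
  rw [map_sum, ← Equiv.sum_comp σ (fun j => pr (σ i) j (rename σ f))]
  exact sum_congr rfl fun j _ => rename_pr σ f

theorem pr_homog {f : Pl N} {n : ℕ} (hf : f.IsHomogeneous n) : (pr i j f).IsHomogeneous n := by
  rcases n with _ | n
  · rw [← totalDegree_zero_iff_isHomogeneous, totalDegree_eq_zero_iff_eq_C] at hf
    rw [hf, pr_apply]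
    simp [dd, isHomogeneous_zero]
  · have h1 : (dd i j f).IsHomogeneous n := hf.pderiv.sub hf.pderiv
    have h2 : (mid i j (dd i j f)).IsHomogeneous (1 * n) := by
      refine h1.aeval _ fun k => ?_
      split_ifs
      · exact (homogeneousSubmodule _ ℂ 1).smul_mem _ ((isHomogeneous_X ℂ i).add (isHomogeneous_X ℂ j))
      · exact isHomogeneous_X ℂ k
    have h3 := ((isHomogeneous_X ℂ i).sub (isHomogeneous_X ℂ j)).mul h2
    rw [one_mul, add_comm] at h3
    exact (homogeneousSubmodule _ ℂ _).smul_mem _ h3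

theorem HH_homog {f : Pl N} {n : ℕ} (hf : f.IsHomogeneous n) : (HH N f).IsHomogeneous n := by
  rw [HH_apply]
  exact IsHomogeneous.sum _ _ _ fun i _ => IsHomogeneous.sum _ _ _ fun j _ => pr_homog hf

theorem HH_deg (f : Pl N) : (HH N f).totalDegree ≤ f.totalDegree := by
  conv_lhs => rw [← sum_homogeneousComponent f, map_sum]
  refine totalDegree_finsetSum_le fun n hn => ?_
  exact (HH_homog (homogeneousComponent_isHomogeneous n f)).totalDegree_le.trans
    (Nat.lt_succ_iff.mp (mem_range.mp hn))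

end Vale.Agent.N359

end
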