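import Vale.Agent.N359.B

/-! P359, planar gap: the energy on the sphere in terms of the planar polynomial. -/

set_option linter.all false

noncomputable section

namespace Vale.Agent.N359

open MvPolynomial Finset Vale.Agent.P359

variable {N Q : ℕ} {i j : Fin N}

def ex (i j : Fin N) (x : Fin N → Fin (Q + 1)) (s : ℕ) : Fin N →₀ ℕ :=
  Finsupp.equivFunOnFinite.symm fun k => if k = i then s else if k = j then 0 else (x k : ℕ)

theorem ex_apply (x : Fin N → Fin (Q + 1)) (s : ℕ) (k : Fin N) :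
    ex i j x s k = if k = i then s else if k = j then 0 else (x k : ℕ) := rfl

theorem coef_pair (Φ : Tensors N Q) (hne : i ≠ j) (x : Fin N → Fin (Q + 1)) (m : ℕ) :
    coeff (ex i j x m) (X i * idn i j (dd i j (genPoly Φ))) =
    (∑ p : Fin (Q + 1), ∑ q ∈ univ.filter (fun q : Fin (Q + 1) => (p : ℕ) + q = m),
      (((p : ℕ) : ℂ) - ((q : ℕ) : ℂ)) * (rb Q p * rb Q q)
        * Φ (Function.update (Function.update x i p) j q))
      * ∏ k ∈ (univ.erase i).erase j, rb Q (x k) := by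
  let y : Fin (Q + 1) × Fin (Q + 1) → (Fin N → Fin (Q + 1)) := fun pq =>
    Function.update (Function.update x i pq.1) j pq.2
  have hyi : ∀ pq, y pq i = pq.1 := by
    intro pq
    simp only [y]
    rw [Function.update_of_ne hne, Function.update_self]
  have hyj : ∀ pq, y pq j = pq.2 := fun pq => Function.update_self _ _ _
  have hyk : ∀ pq k, k ≠ i → k ≠ j → y pq k = x k := by
    intro pq k h1 h2
    simp only [y]
    rw [Function.update_of_ne h2, Function.update_of_ne h1]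
  set W : ℂ := ∏ k ∈ (univ.erase i).erase j, rb Q (x k) with hW
  rw [dd, sum_mer hne, coeff_sum]
  simp only [coeff_monomial]
  rw [← Finset.sum_filter]
  have h3 : ∑ y' ∈ univ.filter (fun y' : Fin N → Fin (Q + 1) => mer i j y' = ex i j x m),
      (((y' i : ℕ) : ℂ) - ((y' j : ℕ) : ℂ)) * (Φ y' * ∏ k, rb Q (y' k))
      = ∑ pq ∈ univ.filter (fun pq : Fin (Q + 1) × Fin (Q + 1) => (pq.1 : ℕ) + pq.2 = m),
        ((((pq.1 : ℕ) : ℂ) - ((pq.2 : ℕ) : ℂ)) * (rb Q pq.1 * rb Q pq.2) * Φ (y pq)) * W := by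
    symm
    apply Finset.sum_bij' (fun pq _ => y pq) (fun y' _ => (y' i, y' j))
    · intro pq hpq
      rw [Finset.mem_filter] at hpq ⊢
      refine ⟨Finset.mem_univ _, ?_⟩
      ext k
      rw [mer_apply, ex_apply, hyi, hyj, hpq.2]
      by_cases h1 : k = i
      · rw [if_pos h1, if_pos h1]
      · rw [if_neg h1, if_neg h1]
        by_cases h2 : k = j
        · rw [if_pos h2, if_pos h2]
        · rw [if_neg h2, if_neg h2, hyk pq k h1 h2]
    · intro y' hy'
      rw [Finset.mem_filter] at hy' ⊢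
      refine ⟨Finset.mem_univ _, ?_⟩
      have := DFunLike.congr_fun hy'.2 i
      rw [mer_apply, ex_apply, if_pos rfl, if_pos rfl] at this
      exact this
    · intro pq _
      simp only [hyi, hyj]
    · intro y' hy'
      rw [Finset.mem_filter] at hy'
      funext k
      by_cases h1 : k = i
      · rw [h1, hyi]
      · by_cases h2 : k = j
        · rw [h2, hyj]
        · rw [hyk _ k h1 h2]
          have := DFunLike.congr_fun hy'.2 k
          rw [mer_apply, ex_apply, if_neg h1, if_neg h1, if_neg h2, if_neg h2] at this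
          exact (Fin.ext this).symm
    · intro pq _
      rw [hyi, hyj]
      rw [← Finset.mul_prod_erase univ (fun k => rb Q (y pq k)) (Finset.mem_univ i),
        ← Finset.mul_prod_erase (univ.erase i) _
          (Finset.mem_erase.mpr ⟨hne.symm, Finset.mem_univ j⟩), hyi, hyj]
      have h4 : ∏ k ∈ (univ.erase i).erase j, rb Q (y pq k) = W := by
        apply Finset.prod_congr rfl
        intro k hk
        rw [Finset.mem_erase, Finset.mem_erase] at hk
        rw [hyk pq k hk.2.1 hk.1]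
      rw [h4]
      ring
  rw [h3, ← Finset.sum_mul, Finset.sum_filter, Fintype.sum_prod_type]
  congr 1
  apply Finset.sum_congr rfl
  intro p _
  rw [Finset.sum_filter]

theorem pairProj_sq (hQ : 1 ≤ Q) (ψ : EuclideanSpace ℂ (Fin (Q + 1) × Fin (Q + 1))) :
    ‖pairProj Q ψ‖ ^ 2 = ∑ s ∈ range (2 * Q - 1), ‖inner ℂ (betaVec Q s) ψ‖ ^ 2 := by
  have ho := betaVec_orthonormal Q hQ
  set r := ∑ s : Fin (2 * Q - 1), inner ℂ (betaVec Q s) ψ • betaVec Q s with hr
  have h1 : pairProj Q (ψ - r) = 0 := (pairProj_eq_zero_iff Q hQ _).mpr fun s hs => by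
    rw [inner_sub_right, hr, ho.inner_right_fintype _ ⟨s, hs⟩, sub_self]
  have h2 : pairProj Q r = r := Submodule.starProjection_eq_self_iff.mpr
    (Submodule.sum_mem _ fun s _ => Submodule.smul_mem _ _ (betaVec_mem Q s))
  rw [map_sub, h2, sub_eq_zero] at h1
  have h3 := ho.inner_sum (fun s => inner ℂ (betaVec Q s) ψ) (fun s => inner ℂ (betaVec Q s) ψ) univ
  rw [← hr, inner_self_eq_norm_sq_to_K] at h3
  rw [h1, Finset.sum_range]
  apply Complex.ofReal_injective
  push_cast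
  refine h3.trans (sum_congr rfl fun s _ => ?_)
  rw [Complex.conj_mul']

theorem inner_slice (s : ℕ) (Φ : Tensors N Q) (x : Fin N → Fin (Q + 1)) :
    inner ℂ (betaVec Q s) (slice i j Φ x) = ((Real.sqrt 2 : ℝ) : ℂ)⁻¹ *
      ∑ p : Fin (Q + 1), ∑ q ∈ univ.filter (fun q : Fin (Q + 1) => (p : ℕ) + q = s + 1),
      (beta Q p q : ℂ) * Φ (Function.update (Function.update x i p) j q) := by
  rw [PiLp.inner_apply]
  simp only [betaVec, P359.slice, RCLike.inner_apply]
  rw [Fintype.sum_prod_type, Finset.mul_sum]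
  apply Finset.sum_congr rfl
  intro p _
  rw [Finset.mul_sum, Finset.sum_filter]
  apply Finset.sum_congr rfl
  intro q _
  split_ifs with hpq
  · rw [Complex.conj_ofReal]
    push_cast
    ring
  · simp

theorem dd_dg (c : ℂ) (f : Pl N) : idn i j (dd i j (dg (fun _ => c) f)) =
    c • dg (fun _ => c) (idn i j (dd i j f)) := by
  have h1 : ∀ k, pderiv k (dg (fun _ => c) f) = c • dg (fun _ => c) (pderiv k f) := fun k => by
    rw [chain _ (fun l k => if k = l then c else 0) (fun l => by simp [dg_X])]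
    simp
  have h2 : (idn i j).comp (dg fun _ => c) = (dg fun _ => c).comp (idn i j) := by
    refine algHom_ext fun k => ?_
    simp only [AlgHom.comp_apply, dg_X, map_smul, idn_X]
    split_ifs <;> rw [dg_X]
  have h3 : ∀ p, idn i j (dg (fun _ => c) p) = dg (fun _ => c) (idn i j p) := fun p =>
    congrArg (fun F : Pl N →ₐ[ℂ] Pl N => F p) h2
  rw [← h3, ← map_smul, dd, dd, h1, h1, map_sub (dg fun _ => c), smul_sub]

/-- the weights of the pair energy on the sphere -/
def wq (Q : ℕ) (i j : Fin N) (m : Fin N →₀ ℕ) : ℝ :=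
  rsq Q (m i) * ∏ k ∈ (univ.erase i).erase j, nu Q (m k)

theorem wq_nonneg (m : Fin N →₀ ℕ) : 0 ≤ wq Q i j m :=
  mul_nonneg (rsq_nonneg _ _) (prod_nonneg fun k _ => nu_nonneg _ _)

theorem amp (hQ : 1 ≤ Q) (hne : i ≠ j) {Φ : Tensors N Q} {f : Pl N}
    (hF : genPoly Φ = dg (fun _ => ((Real.sqrt Q : ℝ) : ℂ)) f) (x : Fin N → Fin (Q + 1)) {s : ℕ}
    (hs : s < 2 * Q - 1) : ‖inner ℂ (betaVec Q s) (slice i j Φ x)‖ ^ 2 =
      ‖coeff (ex i j x s) (idn i j (dd i j f))‖ ^ 2 * wq Q i j (ex i j x s) / 2 := by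
  have h1 := coef_pair Φ hne x (s + 1)
  have e : ex i j x (s + 1) = Finsupp.single i 1 + ex i j x s := by
    ext k
    by_cases hk : k = i
    · simp [hk, ex_apply, add_comm]
    · simp [hk, ex_apply]
  set B := ∑ p : Fin (Q + 1), ∑ q ∈ univ.filter (fun q : Fin (Q + 1) => (p : ℕ) + q = s + 1),
      (beta Q p q : ℂ) * Φ (Function.update (Function.update x i p) j q) with hB
  have h2 : ∑ p : Fin (Q + 1), ∑ q ∈ univ.filter (fun q : Fin (Q + 1) => (p : ℕ) + q = s + 1),
      (((p : ℕ) : ℂ) - ((q : ℕ) : ℂ)) * (rb Q p * rb Q q)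
        * Φ (Function.update (Function.update x i p) j q)
      = -((Real.sqrt ((Q : ℝ) * (Nat.choose (2 * Q - 2) s : ℝ)) : ℝ) : ℂ) * B := by
    rw [hB, Finset.mul_sum]
    refine sum_congr rfl fun p _ => ?_
    rw [Finset.mul_sum]
    refine sum_congr rfl fun q hq => ?_
    rw [beta_eq hs (mem_filter.mp hq).2, mul_assoc]
  rw [e, coeff_X_mul, h2, hF, dd_dg, coeff_smul, coeff_dg, smul_eq_mul] at h1
  have h3 := congrArg (fun z : ℂ => ‖z‖ ^ 2) h1
  have hQ' : (0 : ℝ) < Q := by exact_mod_cast hQ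
  have hC : (0 : ℝ) < (Nat.choose (2 * Q - 2) s : ℝ) := by
    exact_mod_cast Nat.choose_pos (by omega)
  have hr : ∀ k, (0 : ℝ) < (Nat.choose Q (x k) : ℝ) := fun k => by
    exact_mod_cast Nat.choose_pos (Nat.lt_succ_iff.mp (x k).2)
  have h4 : ∀ r : ℝ, 0 ≤ r → ‖((Real.sqrt r : ℝ) : ℂ)‖ ^ 2 = r := fun r h => by
    rw [Complex.norm_real, Real.norm_eq_abs, sq_abs, Real.sq_sqrt h]
  have h5 : ‖∏ k, ((Real.sqrt Q : ℝ) : ℂ) ^ ex i j x s k‖ ^ 2 =
      (Q : ℝ) ^ s * ∏ k ∈ (univ.erase i).erase j, (Q : ℝ) ^ (x k : ℕ) := by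
    rw [norm_prod, ← prod_pow, ← Finset.mul_prod_erase univ _ (mem_univ i),
      ← Finset.mul_prod_erase (univ.erase i) _ (mem_erase.mpr ⟨hne.symm, mem_univ j⟩)]
    have h9 : ∀ n : ℕ, ‖((Real.sqrt Q : ℝ) : ℂ) ^ n‖ ^ 2 = (Q : ℝ) ^ n := fun n => by
      rw [norm_pow, ← pow_mul, mul_comm, pow_mul, h4 _ hQ'.le]
    simp only [h9]
    rw [ex_apply, ex_apply, if_pos rfl, if_neg hne.symm, if_pos rfl, pow_zero, one_mul]
    congr 1
    refine prod_congr rfl fun k hk => ?_
    rw [mem_erase, mem_erase] at hk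
    rw [ex_apply, if_neg hk.2.1, if_neg hk.1]
  have h6 : ‖∏ k ∈ (univ.erase i).erase j, rb Q (x k)‖ ^ 2 =
      ∏ k ∈ (univ.erase i).erase j, (Nat.choose Q (x k) : ℝ) := by
    rw [norm_prod, ← prod_pow]
    exact prod_congr rfl fun k _ => h4 _ (hr k).le
  have h7 : wq Q i j (ex i j x s) = (Q : ℝ) ^ s / (Nat.choose (2 * Q - 2) s : ℝ) *
      ((∏ k ∈ (univ.erase i).erase j, (Q : ℝ) ^ (x k : ℕ)) /
        ∏ k ∈ (univ.erase i).erase j, (Nat.choose Q (x k) : ℝ)) := by
    rw [wq, ex_apply, if_pos rfl, rsq, ← prod_div_distrib]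
    congr 1
    refine prod_congr rfl fun k hk => ?_
    rw [mem_erase, mem_erase] at hk
    rw [ex_apply, if_neg hk.2.1, if_neg hk.1, nu]
  have h8 : 0 < ∏ k ∈ (univ.erase i).erase j, (Nat.choose Q (x k) : ℝ) :=
    prod_pos fun k _ => hr k
  simp only [norm_mul, mul_pow, norm_neg, h5, h6, h4 _ hQ'.le, h4 _ (mul_pos hQ' hC).le] at h3
  rw [inner_slice, ← hB, norm_mul, mul_pow, norm_inv, inv_pow, h4 2 two_pos.le, h7]
  field_simp
  field_simp at h3
  linarith

theorem fiber (g : (Fin N →₀ ℕ) → ℝ) (hg : ∀ m, 0 ≤ g m) (S : Finset (Fin N →₀ ℕ))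
    (hS : ∀ m ∉ S, g m = 0) (n : ℕ) :
    ∑ x : Fin N → Fin (Q + 1), ∑ s ∈ range n, g (ex i j x s) ≤ ((Q : ℝ) + 1) ^ 2 * ∑ m ∈ S, g m := by
  classical
  rw [← sum_product', Finset.sum_comp g (fun p : (Fin N → Fin (Q + 1)) × ℕ => ex i j p.1 p.2)]
  refine le_trans (sum_le_sum (g := fun m => ((Q : ℝ) + 1) ^ 2 * g m) fun m _ => ?_) ?_
  · rw [nsmul_eq_mul]
    refine mul_le_mul_of_nonneg_right ?_ (hg m)
    have h : (((univ : Finset (Fin N → Fin (Q + 1))) ×ˢ range n).filter
        fun p => ex i j p.1 p.2 = m).card ≤ (univ : Finset (Fin (Q + 1) × Fin (Q + 1))).card := by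
      refine card_le_card_of_injOn (fun p => (p.1 i, p.1 j)) (fun _ _ => mem_coe.mpr (mem_univ _))
        fun p hp q hq h => ?_
      have e := ((mem_filter.mp hp).2).trans (mem_filter.mp hq).2.symm
      rw [Prod.mk.injEq] at h
      refine Prod.ext (funext fun k => ?_) ?_
      · by_cases h1 : k = i
        · rw [h1, h.1]
        · by_cases h2 : k = j
          · rw [h2, h.2]
          · have := DFunLike.congr_fun e k
            simp only [ex_apply, if_neg h1, if_neg h2] at this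
            exact Fin.ext this
      · simpa [ex_apply] using DFunLike.congr_fun e i
    rw [card_univ, Fintype.card_prod, Fintype.card_fin] at h
    rw [sq]
    exact_mod_cast h
  · rw [← mul_sum]
    refine mul_le_mul_of_nonneg_left ?_ (by positivity)
    rw [← sum_filter_ne_zero]
    refine sum_le_sum_of_subset_of_nonneg (fun m hm => ?_) fun m _ _ => hg m
    by_contra h
    exact (mem_filter.mp hm).2 (hS m h)

/-- the bound for the energy on the sphere -/
def GG (Q : ℕ) (f : Pl N) : ℝ := ∑ i, ∑ j ∈ Ioi i,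
  ∑ m ∈ (idn i j (dd i j f)).support, ‖coeff m (idn i j (dd i j f))‖ ^ 2 * wq Q i j m / 2

theorem energy_le (hQ : 1 ≤ Q) {Φ : Tensors N Q} {f : Pl N}
    (hF : genPoly Φ = dg (fun _ => ((Real.sqrt Q : ℝ) : ℂ)) f) :
    (inner ℂ Φ (hamiltonian N Q Φ)).re ≤ GG Q f := by
  rw [re_inner_hamiltonian]
  refine sum_le_sum fun i _ => sum_le_sum fun j hj => ?_
  rw [div_le_iff₀' (by positivity)]
  refine le_trans (le_of_eq (sum_congr rfl fun x _ => ?_)) (fiber (i := i) (j := j)
    (fun m => ‖coeff m (idn i j (dd i j f))‖ ^ 2 * wq Q i j m / 2)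
    (fun m => div_nonneg (mul_nonneg (by positivity) (wq_nonneg m)) two_pos.le) _
    (fun m hm => by simp [notMem_support_iff.mp hm]) (2 * Q - 1))
  rw [pairProj_sq hQ]
  exact sum_congr rfl fun s hs => amp hQ (mem_Ioi.mp hj).ne hF x (mem_range.mp hs)

open Filter Topology in
theorem GG_lim (f : Pl N) :
    ∃ L, Tendsto (fun Q => GG Q f) atTop (𝓝 L) ∧ L ≤ (barg f (HH N f)).re := by
  refine ⟨_, tendsto_finset_sum _ fun i _ => tendsto_finset_sum _ fun j _ =>
    tendsto_finset_sum _ fun m _ => (((tendsto_rsq (m i)).mul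
      (tendsto_finset_prod _ fun k _ => tendsto_nu (m k))).const_mul _).div_const 2, ?_⟩
  rw [HH_self, Complex.ofReal_re]
  refine sum_le_sum fun i _ => sum_le_sum fun j hj => ?_
  rw [en, sum_div]
  refine sum_le_sum fun m _ => div_le_div_of_nonneg_right
    (mul_le_mul_of_nonneg_left ?_ (by positivity)) two_pos.le
  rw [fa, ← Finset.mul_prod_erase univ _ (mem_univ i), ← Finset.mul_prod_erase (univ.erase i) _
    (mem_erase.mpr ⟨(mem_Ioi.mp hj).ne', mem_univ j⟩), one_div, inv_pow, div_eq_inv_mul, mul_assoc]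
  refine mul_le_mul_of_nonneg_left (mul_le_mul_of_nonneg_left (le_mul_of_one_le_left
    (by positivity) ?_) (by positivity)) (by positivity)
  exact_mod_cast (m j).factorial_pos

end Vale.Agent.N359

end
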