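import Vale.Agent.N359.C

/-! P359, planar gap: the limit of infinite flux at fixed particle number and degree. -/

set_option linter.all false

noncomputable section

namespace Vale.Agent.N359

open MvPolynomial Finset Vale.Agent.P359

variable {N Q : ℕ}

theorem supp_sub {p : Pl N} (hd : ∀ k, degreeOf k p ≤ Q) :
    p.support ⊆ (univ : Finset (Fin N → Fin (Q + 1))).image expn := fun m hm =>
  mem_image.mpr ⟨fun k => ⟨m k, Nat.lt_succ_of_le ((monomial_le_degreeOf k hm).trans (hd k))⟩,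
    mem_univ _, by ext k; rfl⟩

theorem supp_dg (a : Fin N → ℂ) (p : Pl N) : (dg a p).support ⊆ p.support := fun m hm => by
  rw [mem_support_iff, coeff_dg] at hm
  exact mem_support_iff.mpr (right_ne_zero_of_mul hm)

theorem Anti.dg (c : ℂ) {p : Pl N} (hp : Anti p) : Anti (dg (fun _ => c) p) := fun σ => by
  have h : (rename σ).comp (N359.dg fun _ => c) = (N359.dg fun _ => c).comp (rename σ) :=
    algHom_ext fun k => by simp [dg_X]
  have h1 : rename σ (N359.dg (fun _ => c) p) = N359.dg (fun _ => c) (rename σ p) :=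
    congrArg (fun F : Pl N →ₐ[ℂ] Pl N => F p) h
  rw [h1, hp σ, map_smul]

theorem vand3_dg (c : ℂ) {p : Pl N} (hp : vand3 N ∣ p) : vand3 N ∣ dg (fun _ => c) p := by
  refine dvd_trans ?_ (map_dvd _ hp)
  rw [vand3, map_prod]
  refine prod_dvd_prod_of_dvd _ _ fun i _ => ?_
  rw [map_prod]
  refine prod_dvd_prod_of_dvd _ _ fun j _ => ?_
  rw [map_pow, map_sub, dg_X, dg_X, ← smul_sub, smul_eq_C_mul]
  exact pow_dvd_pow_of_dvd (Dvd.intro_left _ rfl) 3

theorem norm_le (hQ : 1 ≤ Q) (Φ : Tensors N Q) :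
    (barg (dg (fun _ => ((Real.sqrt Q : ℝ) : ℂ)⁻¹) (genPoly Φ))
      (dg (fun _ => ((Real.sqrt Q : ℝ) : ℂ)⁻¹) (genPoly Φ))).re ≤ (braket Φ.ofLp Φ.ofLp).re := by
  have hQ' : (0 : ℝ) < Q := by exact_mod_cast hQ
  rw [barg_self_re ((supp_dg _ _).trans (supp_sub (degreeOf_genPoly Φ))),
    sum_image fun x _ y _ h => expn_injective h, braket, Complex.re_sum]
  refine sum_le_sum fun x _ => ?_
  have h4 : ∀ r : ℝ, 0 ≤ r → ‖((Real.sqrt r : ℝ) : ℂ)‖ ^ 2 = r := fun r h => by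
    rw [Complex.norm_real, Real.norm_eq_abs, sq_abs, Real.sq_sqrt h]
  have h1 : ‖coeff (expn x) (dg (fun _ => ((Real.sqrt Q : ℝ) : ℂ)⁻¹) (genPoly Φ))‖ ^ 2 * fa (expn x)
      = ‖Φ x‖ ^ 2 * ∏ k, (((x k : ℕ).factorial : ℝ) * Nat.choose Q (x k) / (Q : ℝ) ^ (x k : ℕ)) := by
    rw [coeff_dg, coeff_genPoly, norm_mul, norm_mul, norm_prod, norm_prod, mul_pow, mul_pow,
      ← prod_pow, ← prod_pow, fa, mul_left_comm, mul_assoc, ← prod_mul_distrib, ← prod_mul_distrib]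
    congr 1
    refine prod_congr rfl fun k _ => ?_
    rw [expn_apply, norm_pow, ← pow_mul, mul_comm _ 2, pow_mul, norm_inv, inv_pow, h4 _ hQ'.le, rb,
      h4 _ (Nat.cast_nonneg _), inv_pow]
    ring
  rw [h1, Complex.star_def, Complex.conj_mul', ← Complex.ofReal_pow, Complex.ofReal_re]
  refine mul_le_of_le_one_right (by positivity) (prod_le_one (fun k _ => by positivity)
    fun k _ => ?_)
  rw [div_le_one (by positivity)]
  have := Nat.descFactorial_le_pow Q (x k)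
  rw [Nat.descFactorial_eq_factorial_mul_choose] at this
  exact_mod_cast this

theorem sphere {δ : ℝ} (hδ : 0 ≤ δ) (hQ : 1 ≤ Q) (hg : AllFlux.GapAboveZero δ N Q) {f : Pl N}
    (hf : Anti f) (hd : ∀ k, degreeOf k f ≤ Q) :
    ∃ g, Anti g ∧ vand3 N ∣ g ∧ δ * (barg (f - g) (f - g)).re ≤ GG Q f := by
  set c : ℂ := ((Real.sqrt Q : ℝ) : ℂ) with hc
  have hc0 : c ≠ 0 := Complex.ofReal_ne_zero.mpr (Real.sqrt_pos.mpr (by exact_mod_cast hQ)).ne'
  set F := dg (fun _ => c) f with hF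
  have hW : ∀ x : Fin N → Fin (Q + 1), ∏ k, rb Q (x k) ≠ 0 := fun x =>
    prod_ne_zero_iff.mpr fun k _ => rb_ne_zero _
  set Ψ : (Fin N → Fin (Q + 1)) → ℂ := fun x => coeff (expn x) F / ∏ k, rb Q (x k) with hΨ
  have h1 : genPoly (WithLp.toLp 2 Ψ : Tensors N Q) = F := by
    ext m
    by_cases hm : m ∈ (univ : Finset (Fin N → Fin (Q + 1))).image expn
    · obtain ⟨x, -, rfl⟩ := mem_image.mp hm
      rw [coeff_genPoly]
      exact div_mul_cancel₀ _ (hW x)
    · rw [notMem_support_iff.mp fun h => hm (supp_sub (degreeOf_genPoly _) h),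
        notMem_support_iff.mp fun h => hm (supp_sub hd (supp_dg _ _ h))]
  have h2 : IsFermionic Ψ := fun σ x => by
    have e1 : Finsupp.mapDomain σ (expn (x ∘ σ)) = expn x := by
      ext i
      obtain ⟨j, rfl⟩ := σ.surjective i
      rw [Finsupp.mapDomain_apply σ.injective]
      simp
    have e2 : ∏ i, rb Q ((x ∘ σ) i) = ∏ i, rb Q (x i) := Equiv.prod_comp σ fun i => rb Q (x i)
    simp only [hΨ]
    rw [e2, ← coeff_rename_mapDomain σ σ.injective F, e1, hf.dg c σ, coeff_smul, smul_eq_mul,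
      mul_div_assoc]
  obtain ⟨Ψ₀, Ψ₁, e, h0, -, h3⟩ := hg _ (exists_pairProj Q) Ψ h2
  have h4 := (AllFlux.zeroState_iff_dvd hQ (exists_pairProj Q) h0.1).mp h0.2
  have h5 : Anti (genPoly (WithLp.toLp 2 Ψ₀ : Tensors N Q)) := fun σ => by
    rw [rename_genPoly (Φ := WithLp.toLp 2 Ψ₀) h0.1, smul_eq_C_mul]
  refine ⟨_, h5.dg c⁻¹, vand3_dg _ h4, ?_⟩
  have h6 : f - dg (fun _ => c⁻¹) (genPoly (WithLp.toLp 2 Ψ₀ : Tensors N Q)) =
      dg (fun _ => c⁻¹) (genPoly (WithLp.toLp 2 Ψ₁ : Tensors N Q)) := by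
    have e1 : dg (fun _ => c⁻¹) F = f := by
      ext m
      rw [hF, coeff_dg, coeff_dg, ← mul_assoc, ← prod_mul_distrib]
      simp [← mul_pow, hc0]
    have e2 : F = genPoly (WithLp.toLp 2 Ψ₀ : Tensors N Q) +
        genPoly (WithLp.toLp 2 Ψ₁ : Tensors N Q) := by
      rw [← h1, e]
      simp only [genPoly, Pi.add_apply, add_mul, map_add, sum_add_distrib]
    rw [← e1, e2, map_add, add_sub_cancel_left]
  rw [h6]
  refine le_trans (mul_le_mul_of_nonneg_left (norm_le hQ _) hδ) (h3.trans ?_)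
  have h7 := energy_le hQ (h1.trans hF)
  rwa [pairSum_eq (exists_pairProj Q), inner_eq_braket] at h7

/-- the fermions -/
def antiSub (N : ℕ) : Submodule ℂ (Pl N) where
  carrier := {f | Anti f}
  add_mem' hf hg σ := by rw [map_add, hf σ, hg σ, smul_add]
  zero_mem' σ := by simp
  smul_mem' c f hf σ := by rw [map_smul, hf σ, smul_comm]

theorem decomp {f : Pl N} (hf : Anti f) : ∃ f₀ g, Anti f₀ ∧ HH N f₀ = 0 ∧ f = f₀ + HH N g ∧
    f₀.totalDegree ≤ f.totalDegree := by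
  set V := restrictTotalDegree (Fin N) ℂ f.totalDegree ⊓ antiSub N
  have : FiniteDimensional ℂ V := Submodule.finiteDimensional_inf_left _ _
  have hV : ∀ p ∈ V, HH N p ∈ V := fun p hp =>
    ⟨(mem_restrictTotalDegree _ _ _).mpr ((HH_deg p).trans
      ((mem_restrictTotalDegree _ _ _).mp hp.1)), Anti.HH hp.2⟩
  set L := (HH N).restrict hV
  have h1 : LinearMap.ker L ⊔ LinearMap.range L = ⊤ := by
    refine Submodule.eq_top_of_disjoint _ _ ?_ ?_
    · rw [add_comm, L.finrank_range_add_finrank_ker]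
    · rw [Submodule.disjoint_def]
      rintro _ h ⟨p, rfl⟩
      have h2 : HH N (HH N p) = 0 := congrArg Subtype.val (LinearMap.mem_ker.mp h)
      refine Subtype.ext (eq_zero_of_barg ?_)
      show (barg (HH N p) (HH N p)).re = 0
      rw [HH_symm, h2, barg_zero_right, Complex.zero_re]
  have h3 : (⟨f, (mem_restrictTotalDegree _ _ _).mpr le_rfl, hf⟩ : V) ∈
      LinearMap.ker L ⊔ LinearMap.range L := h1 ▸ Submodule.mem_top
  obtain ⟨a, ha, _, ⟨b, rfl⟩, e⟩ := Submodule.mem_sup.mp h3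
  exact ⟨a, b, a.2.2, congrArg Subtype.val (LinearMap.mem_ker.mp ha),
    (congrArg Subtype.val e).symm, (mem_restrictTotalDegree _ _ _).mp a.2.1⟩

open Filter Topology in
theorem planar_gap' {f : Pl N} (hf : Anti f) : ∃ f₀ f₁, (f = f₀ + f₁ ∧ Anti f₀ ∧ HH N f₀ = 0 ∧
    (∀ g, Anti g → HH N g = 0 → barg g f₁ = 0) ∧
    1 / 50 * (barg f₁ f₁).re ≤ (barg f (HH N f)).re) ∧ f₀.totalDegree ≤ f.totalDegree := by
  obtain ⟨f₀, g, h0, h1, e, hd⟩ := decomp hf
  have ho : ∀ k, HH N k = 0 → barg k (HH N g) = 0 := fun k hk => by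
    rw [← HH_symm, hk, barg_zero_left]
  refine ⟨f₀, HH N g, ⟨e, h0, h1, fun k _ => ho k, ?_⟩, hd⟩
  obtain ⟨L, hL, hle⟩ := GG_lim f
  have key : ∀ δ : ℝ, 0 ≤ δ → δ < 1 / 50 → δ * (barg (HH N g) (HH N g)).re ≤ L := by
    intro δ h2 h3
    obtain ⟨Q₀, hQ₀⟩ := AllFlux.asymptotic_gap δ h3
    refine ge_of_tendsto hL ?_
    filter_upwards [eventually_ge_atTop Q₀, eventually_ge_atTop 1,
      eventually_ge_atTop f.totalDegree] with Q a1 a2 a3
    obtain ⟨k, b1, b2, b3⟩ := sphere h2 a2 (hQ₀ Q a1 N) hf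
      fun k => (degreeOf_le_totalDegree f k).trans a3
    refine le_trans (mul_le_mul_of_nonneg_left ?_ h2) b3
    have b4 := ho (f₀ - k) (by rw [map_sub, h1, (HH_eq_zero_iff b1).mpr b2, sub_self])
    have b5 : f - k = (f₀ - k) + HH N g := by rw [e]; ring
    rw [b5, barg_add_left, barg_add_right, barg_add_right, b4, barg_symm (f₀ - k) (HH N g), b4]
    simpa using barg_self_nonneg _
  refine le_trans ?_ hle
  have h4 : Tendsto (fun δ : ℝ => δ * (barg (HH N g) (HH N g)).re) (𝓝[<] (1 / 50))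
      (𝓝 (1 / 50 * (barg (HH N g) (HH N g)).re)) :=
    (tendsto_id.mul_const _).mono_left nhdsWithin_le_nhds
  refine le_of_tendsto h4 ?_
  filter_upwards [Ioo_mem_nhdsLT (show (0 : ℝ) < 1 / 50 by norm_num)] with δ hδ
  exact key δ hδ.1.le hδ.2

theorem planar_gap (N : ℕ) : PlanarGap (HH N) (1 / 50) := fun f hf => by
  obtain ⟨f₀, f₁, h, -⟩ := planar_gap' hf
  exact ⟨f₀, f₁, h⟩

theorem eigen_gap {f : Pl N} (hf : Anti f) (h0 : f ≠ 0) {μ : ℂ} (h : HH N f = μ • f) :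
    μ = 0 ∨ (μ.im = 0 ∧ 1 / 50 ≤ μ.re) := by
  refine or_iff_not_imp_left.mpr fun hμ => ?_
  obtain ⟨f₀, f₁, e, ha, h1, h2, h3⟩ := planar_gap N f hf
  have hp : 0 < (barg f f).re :=
    lt_of_le_of_ne (barg_self_nonneg f) fun h => h0 (eq_zero_of_barg h.symm)
  have h4 : f₀ = 0 := by
    have h5 := HH_symm f₀ f
    rw [h1, barg_zero_left, h, barg_smul_right, eq_comm, mul_eq_zero, or_iff_right hμ, e,
      barg_add_right, h2 f₀ ha h1, add_zero] at h5
    exact eq_zero_of_barg (by rw [h5]; rfl)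
  rw [h4, zero_add] at e
  have h6 := congrArg Complex.im (HH_self f)
  rw [← e, h, barg_smul_right, Complex.mul_re, barg_self_im, mul_zero, sub_zero] at h3
  rw [h, barg_smul_right, Complex.mul_im, barg_self_im, mul_zero, zero_add, Complex.ofReal_im,
    mul_eq_zero, or_iff_left hp.ne'] at h6
  exact ⟨h6, le_of_mul_le_mul_right h3 hp⟩

theorem vand3_homog (N : ℕ) : (vand3 N).IsHomogeneous (3 * N.choose 2) := by
  have h := IsHomogeneous.prod (univ : Finset (Fin N))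
    (fun i => ∏ j ∈ Ioi i, (X i - X j : Pl N) ^ 3) (fun i => ∑ j ∈ Ioi i, 1 * 3) fun i _ =>
      IsHomogeneous.prod _ _ _ fun j _ => ((isHomogeneous_X ℂ i).sub (isHomogeneous_X ℂ j)).pow 3
  have e : ∑ i : Fin N, ∑ j ∈ Ioi i, 1 * 3 = 3 * N.choose 2 := by
    simp only [sum_const, Fin.card_Ioi, smul_eq_mul, one_mul]
    rw [← sum_mul, mul_comm, Fin.sum_univ_eq_sum_range (fun i => N - 1 - i),
      sum_range_reflect (fun i => i), Nat.choose_two_right, sum_range_id]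
  rwa [e] at h

theorem vand3_anti (N : ℕ) : Anti (vand3 N) := fun σ => by
  rw [AllFlux.rename_vand3, smul_eq_C_mul]

theorem low_ker {f : Pl N} (hd : f.totalDegree ≤ 3 * N.choose 2) (h : vand3 N ∣ f) :
    ∃ c : ℂ, f = c • vand3 N := by
  obtain ⟨g, rfl⟩ := h
  by_cases hg : g = 0
  · exact ⟨0, by simp [hg]⟩
  rw [totalDegree_mul_of_isDomain (vand3_ne_zero N) hg,
    (vand3_homog N).totalDegree (vand3_ne_zero N)] at hd
  exact ⟨coeff 0 g, by
    rw [smul_eq_C_mul, mul_comm, ← totalDegree_eq_zero_iff_eq_C.mp (by omega)]⟩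

theorem low_gap {f : Pl N} (hf : Anti f) (hd : f.totalDegree ≤ 3 * N.choose 2) :
    1 / 50 * (barg (f - (barg (vand3 N) f / barg (vand3 N) (vand3 N)) • vand3 N)
      (f - (barg (vand3 N) f / barg (vand3 N) (vand3 N)) • vand3 N)).re ≤
      (barg f (HH N f)).re := by
  obtain ⟨f₀, f₁, ⟨e, ha, h1, h2, h3⟩, h4⟩ := planar_gap' hf
  obtain ⟨c, rfl⟩ := low_ker (h4.trans hd) ((HH_eq_zero_iff ha).mp h1)
  have h5 : barg (vand3 N) (vand3 N) ≠ 0 := fun h =>
    vand3_ne_zero N (eq_zero_of_barg (by rw [h]; rfl))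
  have h6 : barg (vand3 N) f / barg (vand3 N) (vand3 N) = c := by
    rw [div_eq_iff h5, e, barg_add_right, barg_smul_right,
      h2 _ (vand3_anti N) ((HH_eq_zero_iff (vand3_anti N)).mpr dvd_rfl), add_zero]
  rwa [h6, show f - c • vand3 N = f₁ by rw [e]; ring]

end Vale.Agent.N359

end
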