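import Mathlib.RingTheory.MvPolynomial.Homogeneous
import Mathlib.GroupTheory.Perm.Sign
import Mathlib.Analysis.SpecialFunctions.Trigonometric.Basic
import Mathlib.MeasureTheory.Measure.Lebesgue.Complex
import Mathlib.MeasureTheory.Integral.Bochner.Basic

/-!
P359: the planar Laughlin Hamiltonian. The lowest Landau level of the plane is the Bargmann space;
`N`-particle states are polynomials in `z_1, …, z_N` (`z_i = X i`), a dense invariant subspace.
-/

noncomputable section

namespace Vale.Agent.N359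

open MvPolynomial

variable {N : ℕ}

/-- polynomials in `z_1, …, z_N` -/
abbrev Pl (N : ℕ) : Type := MvPolynomial (Fin N) ℂ

/-- the Bargmann inner product `π^{-N} ∫ conj (f z) g z exp (-∑ |z_k|^2) dz` over `ℂ^N` -/
def barg (f g : Pl N) : ℂ :=
  (∫ z : Fin N → ℂ, star (eval z f) * eval z g * (Real.exp (-∑ k, ‖z k‖ ^ 2) : ℝ)) / Real.pi ^ N

/-- fermions: antisymmetric polynomials -/
def Anti (f : Pl N) : Prop :=
  ∀ σ : Equiv.Perm (Fin N), rename σ f = ((Equiv.Perm.sign σ : ℤ) : ℂ) • f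

/-- the particles `i`, `j` have relative angular momentum one: `w = (z_i - z_j) h`, with `h` a
polynomial in `z_i + z_j` and the other variables -/
def RelOne (i j : Fin N) (w : Pl N) : Prop :=
  ∃ h ∈ Algebra.adjoin ℂ (insert (X i + X j) {p : Pl N | ∃ k, k ≠ i ∧ k ≠ j ∧ p = X k}),
    w = (X i - X j) * h

/-- `T` is the orthogonal projection onto relative angular momentum one of the pair `i`, `j` -/
def IsRelProj (i j : Fin N) (T : Pl N → Pl N) : Prop :=
  ∀ f, RelOne i j (T f) ∧ ∀ w, RelOne i j w → barg w (f - T f) = 0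

/-- `H = ∑_{i<j} T_{ij}` -/
def planarH (T : Fin N → Fin N → Pl N → Pl N) (f : Pl N) : Pl N :=
  ∑ i, ∑ j ∈ Finset.Ioi i, T i j f

/-- the planar Laughlin polynomial `∏_{i<j} (z_i - z_j)^3` -/
def laughlinPl (N : ℕ) : Pl N := ∏ i : Fin N, ∏ j ∈ Finset.Ioi i, (X i - X j) ^ 3

/-- `(I - P_L) f`, `P_L` the orthogonal projection onto the span of the Laughlin polynomial -/
def perpL (f : Pl N) : Pl N :=
  f - (barg (laughlinPl N) f / barg (laughlinPl N) (laughlinPl N)) • laughlinPl N

/-- `H ≥ δ (I - P₀)` on the fermions, `P₀` the orthogonal projection onto the zero-energy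
fermions: `f = f₀ + f₁`, `f₀` of zero energy, `f₁` orthogonal to all zero-energy fermions, and
`⟨f, H f⟩ ≥ δ ‖f₁‖²` -/
def PlanarGap (H : Pl N → Pl N) (δ : ℝ) : Prop :=
  ∀ f, Anti f → ∃ f₀ f₁, f = f₀ + f₁ ∧ Anti f₀ ∧ H f₀ = 0 ∧
    (∀ g, Anti g → H g = 0 → barg g f₁ = 0) ∧ δ * (barg f₁ f₁).re ≤ (barg f (H f)).re

end Vale.Agent.N359

end
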