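import Vale.Agent.N359.D
import Vale.Agent.P359.H737.Main

/-! P359: the sphere and the plane, assembly. -/

set_option linter.all false

noncomputable section

namespace Vale.Agent.N359

open MvPolynomial Vale.Agent.P359 Vale.Agent.P359.Levels

theorem sphere_main :
    (∀ Q : ℕ, 1 ≤ Q → ∃! P, IsPairProj Q P) ∧
      ∃ δ : ℝ, 0 < δ ∧ ∀ N : ℕ, 2 ≤ N → ∀ P, IsPairProj (3 * (N - 1)) P →
        IsFermionic (laughlinVec N) ∧ laughlinVec N ≠ 0 ∧
        (∀ Ψ, IsFermionic Ψ → IsFermionic (pairSum P Ψ) ∧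
          (pairSum P Ψ = 0 ↔ ∃ c : ℂ, Ψ = c • laughlinVec N) ∧
          δ * (braket (perpPart Ψ) (perpPart Ψ)).re ≤ (braket Ψ (pairSum P Ψ)).re) ∧
        (∃ (D : ℕ) (E : Fin (D + 2) → ℝ), IsLevels N P E) ∧
        ∀ (D : ℕ) (E : Fin (D + 2) → ℝ), IsLevels N P E → E 0 = 0 ∧ δ ≤ E 1 - E 0 := by
  obtain ⟨δ, hδ, h⟩ := AllFlux.laughlin_all
  obtain ⟨ε, hε, g⟩ := AllFlux.uniform_gap
  refine ⟨fun Q _ => unique_pairProj Q, min δ ε, lt_min hδ hε, fun N hN P hP => ?_⟩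
  obtain ⟨h1, h2, -, h4⟩ := h N hN P hP
  refine ⟨h1, h2, fun Ψ hΨ => ⟨?_, ?_, le_trans (mul_le_mul_of_nonneg_right (min_le_left _ _) ?_)
    (h4 Ψ hΨ)⟩, ?_, fun D E hE => ?_⟩
  · exact (opH hP ⟨WithLp.toLp 2 Ψ, hΨ⟩).2
  · rw [← zero_iff_laughlin hN hP, and_iff_right hΨ]
  · rw [braket, Complex.re_sum]
    refine Finset.sum_nonneg fun x _ => ?_
    rw [Complex.star_def, Complex.conj_mul', ← Complex.ofReal_pow, Complex.ofReal_re]
    positivity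
  · obtain ⟨D, hD⟩ := Nat.exists_eq_add_of_le' (two_le_dim hN)
    have h5 := energy_isLevels (N := N) hP
    rw [hD] at h5
    exact ⟨D, _, h5⟩
  · have h5 := (energy_unique hP hE).2
    rw [h5, h5]
    exact ⟨energy_laughlin_zero hN, (min_le_right _ _).trans (gap_laughlin hN (g _ (by omega) N))⟩

theorem plane_main (N : ℕ) :
    (∀ f g : Pl N, barg f g =
      ∑ m ∈ f.support, star (coeff m f) * coeff m g * ∏ k, ((m k).factorial : ℂ)) ∧
    (∀ i j : Fin N, i ≠ j → ∃! T, IsRelProj i j T) ∧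
    ∀ T : Fin N → Fin N → Pl N → Pl N, (∀ i j, i < j → IsRelProj i j (T i j)) →
      (∀ f g, barg (planarH T f) g = barg f (planarH T g)) ∧
      (∀ f, Anti f → Anti (planarH T f) ∧ (planarH T f = 0 ↔ laughlinPl N ∣ f)) ∧
      PlanarGap (planarH T) (1 / 50) ∧
      (∀ (f : Pl N) (μ : ℂ), Anti f → f ≠ 0 → planarH T f = μ • f →
        μ = 0 ∨ (μ.im = 0 ∧ 1 / 50 ≤ μ.re)) ∧
      Anti (laughlinPl N) ∧ laughlinPl N ≠ 0 ∧ (laughlinPl N).IsHomogeneous (3 * N.choose 2) ∧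
      ∀ f, Anti f → f.totalDegree ≤ 3 * N.choose 2 →
        (planarH T f).totalDegree ≤ 3 * N.choose 2 ∧
        (planarH T f = 0 ↔ ∃ c : ℂ, f = c • laughlinPl N) ∧
        1 / 50 * (barg (perpL f) (perpL f)).re ≤ (barg f (planarH T f)).re := by
  refine ⟨barg_def, fun i j h => ⟨_, pr_isProj h, fun T hT => eq_pr h hT⟩, fun T hT => ?_⟩
  rw [planarH_eq hT]
  refine ⟨HH_symm, fun f hf => ⟨hf.HH, HH_eq_zero_iff hf⟩, planar_gap N,
    fun f μ hf h0 h => eigen_gap hf h0 h, vand3_anti N, vand3_ne_zero N, vand3_homog N,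
    fun f hf hd => ⟨(HH_deg f).trans hd, ⟨fun h => low_ker hd ((HH_eq_zero_iff hf).mp h), ?_⟩,
      low_gap hf hd⟩⟩
  rintro ⟨c, rfl⟩
  rw [map_smul]
  exact smul_eq_zero_of_right c ((HH_eq_zero_iff (vand3_anti N)).mpr dvd_rfl)

end Vale.Agent.N359

end
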