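import Vale.Agent.N359.Defs
import Mathlib.MeasureTheory.Integral.Gamma
import Mathlib.MeasureTheory.Integral.Pi
import Mathlib.Analysis.Complex.Isometry

/-! P359, planar gap: the Gaussian moments. -/

set_option linter.all false

noncomputable section

namespace Vale.Agent.N359

open MvPolynomial Finset MeasureTheory Real

/-- the integrand of the moments -/
def mo (a b : ℕ) (z : ℂ) : ℂ := star z ^ a * z ^ b * (rexp (-‖z‖ ^ 2) : ℝ)

theorem gauss (n : ℕ) :
    ∫ z : ℂ, ‖z‖ ^ n * rexp (-‖z‖ ^ 2) = π * Real.Gamma (((n : ℝ) + 2) / 2) := by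
  have h := Complex.integral_rpow_mul_exp_neg_rpow (p := 2) (q := n) one_le_two
    (lt_of_lt_of_le (by norm_num) (Nat.cast_nonneg n))
  simp only [Real.rpow_natCast, Real.rpow_two] at h
  rw [h]
  ring

theorem mo_int (a b : ℕ) : Integrable (mo a b) := by
  have h : Integrable fun z : ℂ => ‖z‖ ^ (a + b) * rexp (-‖z‖ ^ 2) :=
    .of_integral_ne_zero (by
      rw [gauss]
      exact (mul_pos pi_pos (Real.Gamma_pos_of_pos (by positivity))).ne')
  refine h.mono' (Continuous.aestronglyMeasurable (by unfold mo; fun_prop)) (ae_of_all _ fun z => ?_)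
  simp [mo, pow_add, Complex.norm_exp, ← Complex.ofReal_pow]

theorem mo_val (a b : ℕ) : ∫ z, mo a b z = if a = b then ((π * a.factorial : ℝ) : ℂ) else 0 := by
  split_ifs with h
  · subst h
    have h1 : ∀ z, mo a a z = ((‖z‖ ^ (2 * a) * rexp (-‖z‖ ^ 2) : ℝ) : ℂ) := fun z => by
      rw [mo, ← mul_pow, Complex.star_def, Complex.conj_mul', pow_mul]
      push_cast
      rfl
    simp only [h1]
    rw [integral_complex_ofReal, gauss, ← Real.Gamma_nat_eq_factorial]
    congr 3
    push_cast
    ring
  · set u := Circle.exp (π / ((b : ℝ) - a)) with hu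
    have h1 := ((rotation u).measurePreserving).integral_comp
      (rotation u).toHomeomorph.measurableEmbedding (mo a b)
    have hd : ((b : ℂ) - a) ≠ 0 := sub_ne_zero.mpr fun e => h (by exact_mod_cast e.symm)
    have h2 : star (u : ℂ) ^ a * (u : ℂ) ^ b = -1 := by
      rw [hu, Circle.coe_exp, Complex.star_def, ← Complex.exp_conj, ← Complex.exp_nat_mul,
        ← Complex.exp_nat_mul, ← Complex.exp_add, ← Complex.exp_pi_mul_I]
      congr 1
      simp only [map_mul, Complex.conj_ofReal, Complex.conj_I]
      push_cast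
      field_simp
      ring
    have h3 : ∀ z, mo a b (rotation u z) = -mo a b z := fun z => by
      rw [mo, mo, LinearIsometryEquiv.norm_map, rotation_apply, star_mul', mul_pow, mul_pow]
      linear_combination (star z ^ a * z ^ b * (rexp (-‖z‖ ^ 2) : ℝ)) * h2
    simp only [h3, integral_neg] at h1
    linear_combination (-1 / 2 : ℂ) * h1

variable {N : ℕ}

theorem integrand (f g : Pl N) (z : Fin N → ℂ) :
    star (eval z f) * eval z g * (rexp (-∑ k, ‖z k‖ ^ 2) : ℝ) = ∑ m ∈ f.support, ∑ n ∈ g.support,
      star (coeff m f) * coeff n g * ∏ k, mo (m k) (n k) (z k) := by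
  rw [eval_eq', eval_eq', star_sum, sum_mul_sum, sum_mul]
  refine sum_congr rfl fun m _ => ?_
  rw [sum_mul]
  refine sum_congr rfl fun n _ => ?_
  rw [← sum_neg_distrib, Real.exp_sum]
  simp only [mo, prod_mul_distrib, star_mul', star_prod, star_pow, Complex.ofReal_prod]
  ring

theorem term_int (m n : Fin N →₀ ℕ) (c : ℂ) :
    Integrable fun z : Fin N → ℂ => c * ∏ k, mo (m k) (n k) (z k) :=
  (Integrable.fintype_prod fun k => mo_int (m k) (n k)).const_mul c

theorem barg_int (f g : Pl N) : Integrable fun z : Fin N → ℂ =>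
    star (eval z f) * eval z g * (rexp (-∑ k, ‖z k‖ ^ 2) : ℝ) := by
  simp only [integrand]
  exact integrable_finset_sum _ fun m _ => integrable_finset_sum _ fun n _ => term_int m n _

theorem barg_def (f g : Pl N) : barg f g =
    ∑ m ∈ f.support, star (coeff m f) * coeff m g * ∏ k, ((m k).factorial : ℂ) := by
  classical
  simp only [barg, integrand]
  rw [integral_finset_sum _ fun m _ => integrable_finset_sum _ fun n _ => term_int m n _,
    div_eq_iff (pow_ne_zero _ (Complex.ofReal_ne_zero.mpr pi_ne_zero)), sum_mul]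
  refine sum_congr rfl fun m _ => ?_
  rw [integral_finset_sum _ fun n _ => term_int m n _]
  simp only [integral_const_mul, integral_fintype_prod_volume_eq_prod, mo_val]
  rw [Finset.sum_eq_single m]
  · simp [prod_mul_distrib]
    ring
  · intro n _ hn
    obtain ⟨k, hk⟩ := DFunLike.ne_iff.mp hn
    rw [Finset.prod_eq_zero (mem_univ k) (if_neg (Ne.symm hk)), mul_zero]
  · intro hm
    rw [notMem_support_iff.mp hm]
    simp

end Vale.Agent.N359

end
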