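import Vale.Agent.N359.E

/-!
P359: the Laughlin spectral gap on the sphere (question Q1, both forms) and in the plane.
Definitions: `Vale/Agent/P359/Stmt.lean`, `Vale/Agent/P359/H737/Defs.lean` (sphere), `Vale/Agent/N359/Defs.lean` (plane).
-/

namespace Vale.Agent.N359.OldA0Planar

open MvPolynomial Vale.Agent.P359 Vale.Agent.P359.Levels Vale.Agent.N359

/-- (1) Q1 in both forms, one `δ > 0` for all `N ≥ 2`.
(2) The plane, every `N`: `H = ∑_{i<j} T_{ij}`, `T_{ij}` the orthogonal projection onto relative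
angular momentum one in the Bargmann space, has the gap `1/50` above its zero-energy states, the
multiples of `∏_{i<j} (z_i - z_j)^3`. (3) At and below the Laughlin angular momentum
`3 N (N - 1) / 2`: `H ≥ (I - P_L) / 50`. -/
theorem old_result :
    -- (1)
    ((∀ Q : ℕ, 1 ≤ Q → ∃! P, IsPairProj Q P) ∧
      ∃ δ : ℝ, 0 < δ ∧ ∀ N : ℕ, 2 ≤ N → ∀ P, IsPairProj (3 * (N - 1)) P →
        IsFermionic (laughlinVec N) ∧ laughlinVec N ≠ 0 ∧
        (∀ Ψ, IsFermionic Ψ → IsFermionic (pairSum P Ψ) ∧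
          (pairSum P Ψ = 0 ↔ ∃ c : ℂ, Ψ = c • laughlinVec N) ∧
          δ * (braket (perpPart Ψ) (perpPart Ψ)).re ≤ (braket Ψ (pairSum P Ψ)).re) ∧
        (∃ (D : ℕ) (E : Fin (D + 2) → ℝ), IsLevels N P E) ∧
        ∀ (D : ℕ) (E : Fin (D + 2) → ℝ), IsLevels N P E → E 0 = 0 ∧ δ ≤ E 1 - E 0) ∧
    -- (2)
    ∀ N : ℕ,
      (∀ f g : Pl N, barg f g =
        ∑ m ∈ f.support, star (coeff m f) * coeff m g * ∏ k, ((m k).factorial : ℂ)) ∧
      (∀ i j : Fin N, i ≠ j → ∃! T, IsRelProj i j T) ∧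
      ∀ T : Fin N → Fin N → Pl N → Pl N, (∀ i j, i < j → IsRelProj i j (T i j)) →
        (∀ f g, barg (planarH T f) g = barg f (planarH T g)) ∧
        (∀ f, Anti f → Anti (planarH T f) ∧ (planarH T f = 0 ↔ laughlinPl N ∣ f)) ∧
        PlanarGap (planarH T) (1 / 50) ∧
        (∀ (f : Pl N) (μ : ℂ), Anti f → f ≠ 0 → planarH T f = μ • f →
          μ = 0 ∨ (μ.im = 0 ∧ 1 / 50 ≤ μ.re)) ∧
        -- (3)
        Anti (laughlinPl N) ∧ laughlinPl N ≠ 0 ∧ (laughlinPl N).IsHomogeneous (3 * N.choose 2) ∧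
        ∀ f, Anti f → f.totalDegree ≤ 3 * N.choose 2 →
          (planarH T f).totalDegree ≤ 3 * N.choose 2 ∧
          (planarH T f = 0 ↔ ∃ c : ℂ, f = c • laughlinPl N) ∧
          1 / 50 * (barg (perpL f) (perpL f)).re ≤ (barg f (planarH T f)).re :=
  ⟨sphere_main, plane_main⟩

end Vale.Agent.N359.OldA0Planar
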